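import Crest.Agent.S0222Lib.FRTableLevel

/-! Generated certificates of the table of the first-row bound at depth 3. -/

set_option autoImplicit false
set_option maxRecDepth 100000

namespace Crest.Agent.S0222Lib.FRTable

def c3_2 : Cert := ⟨0, 972, 148277774111526461898752, [253123376932393381265408, 0, 253123376932393381265408], 126561688466196690632704, 1771183⟩

def c3_3 : Cert := ⟨0, 619, 192429611520968387198976, [92649342714866073468928, 0, 0, 92649342714866073468928], 23162335678716518367232, 1364796⟩

def c3_4 : Cert := ⟨0, 512, 120589809291945513582592, [368065091297428048379904, 39631723168083302416384, 12687916640605996843008, 39631723168083302416384, 368065091297428048379904], 70581966736447406071808, 1675273⟩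

def c3_5 : Cert := ⟨0, 534, 89651125663289267191808, [477966461662056658065733, 269336805298482626887680, 0, 0, 269336805298482626887680, 477966461662056658065733], 114040655509654362031509, 1733393⟩

def c3_6 : Cert := ⟨0, 354, 161273868789466439614464, [565805334358524315312791, 179711623798722151841792, 37055846636601077829440, 0, 37055846636601077829440, 179711623798722151841792, 565805334358524315312791], 68747274271871043556411, 1628454⟩

def c3_7 : Cert := ⟨0, 423, 106142074407905004617728, [813843929529099468093867, 258657582393032224866304, 137420631644513606554702, 1535295876230386731629, 1535295876230386731629, 137420631644513606554702, 258657582393032224866304, 813843929529099468093867], 86937744163799598678340, 1903306⟩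

def c3_8 : Cert := ⟨0, 289, 157109787710617271926784, [937856453828019914022520, 589674247919456367609437, 101865144418733798894730, 0, 12254064983619953062052, 0, 101865144418733798894730, 589674247919456367609437,
  937856453828019914022520], 69815365276054027977518, 1671615⟩

def c3_9 : Cert := ⟨0, 0, 0, [0, 0, 150241236490730382295040, 150241236490730382295040, 169363852694237224988836, 169363852694237224988836, 150241236490730382295040, 150241236490730382295040,
  0, 0], 169363852694237224988836, 1048576⟩

def c3_10 : Cert := ⟨0, 0, 0, [0, 0, 150241236490730382295040, 150241236490730382295040, 169363852694237224988836, 169363852694237224988836, 169363852694237224988836, 150241236490730382295040,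
  150241236490730382295040, 0, 0], 169363852694237224988836, 1048576⟩

def c3_11 : Cert := ⟨0, 0, 0, [0, 0, 0, 98982461688010604806144, 169363852694237224988836, 169363852694237224988836, 169363852694237224988836, 169363852694237224988836,
  98982461688010604806144, 0, 0, 0], 169363852694237224988836, 1048576⟩

def c3_12 : Cert := ⟨0, 0, 0, [0, 0, 0, 0, 169363852694237224988836, 169363852694237224988836, 169363852694237224988836, 169363852694237224988836,
  169363852694237224988836, 0, 0, 0, 0], 169363852694237224988836, 1048576⟩

def c3_13 : Cert := ⟨0, 0, 0, [0, 0, 0, 0, 0, 44290632520976633430016, 44290632520976633430016, 44290632520976633430016,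
  44290632520976633430016, 0, 0, 0, 0, 0], 44290632520976633430016, 1048576⟩

def c3_14 : Cert := ⟨0, 0, 0, [0, 0, 0, 0, 0, 0, 44290632520976633430016, 44290632520976633430016,
  44290632520976633430016, 0, 0, 0, 0, 0, 0], 44290632520976633430016, 1048576⟩

def c3_15 : Cert := ⟨0, 0, 0, [0, 0, 0, 0, 0, 0, 0, 0,
  0, 0, 0, 0, 0, 0, 0, 0], 0, 1048576⟩

def c3_16 : Cert := ⟨0, 0, 0, [0, 0, 0, 0, 0, 0, 0, 0,
  0, 0, 0, 0, 0, 0, 0, 0,
  0], 0, 1048576⟩

def certs3 : List Cert := [c3_2, c3_3, c3_4, c3_5, c3_6, c3_7, c3_8, c3_9, c3_10, c3_11, c3_12, c3_13, c3_14, c3_15, c3_16]

theorem level3_ok : levelOK 8 U3 U4 certs3 = true := by decide +kernel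

end Crest.Agent.S0222Lib.FRTable
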